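import Vale.Agent.P207Z.Leh.One

/-!
The functional inequality of Blaschke and Santaló (Lehec): the induction on the dimension.
-/

open MeasureTheory Set Filter Topology Matrix
open scoped ENNReal

noncomputable section

namespace Vale.Agent.P207Z.Leh

variable {n : ℕ}

/-- a vector from its first coordinate and the other ones -/
def cs (s : ℝ) (x : Fin n → ℝ) : Fin (n + 1) → ℝ := Fin.cons s x

theorem cs_zero (s : ℝ) (x : Fin n → ℝ) : cs s x 0 = s := rfl

theorem cs_tail (s : ℝ) (x : Fin n → ℝ) : Fin.tail (cs s x) = x := rfl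

theorem cs_dot (s t : ℝ) (x y : Fin n → ℝ) : cs s x ⬝ᵥ cs t y = s * t + x ⬝ᵥ y := by
  simp [cs, dotProduct, Fin.sum_univ_succ]

theorem cs_cont : Continuous fun q : ℝ × (Fin n → ℝ) => cs q.1 q.2 := by
  refine continuous_pi fun i => ?_
  refine Fin.cases ?_ (fun j => ?_) i
  · exact continuous_fst
  · exact (continuous_apply j).comp continuous_snd

theorem cs_meas {α : Type*} [MeasurableSpace α] {a : α → ℝ} {b : α → Fin n → ℝ}
    (ha : Measurable a) (hb : Measurable b) : Measurable fun q => cs (a q) (b q) :=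
  cs_cont.measurable.comp (ha.prodMk hb)

theorem split (u : (Fin (n + 1) → ℝ) → ℝ≥0∞) (hu : Measurable u) :
    ∫⁻ p, u p = ∫⁻ s : ℝ, ∫⁻ x : Fin n → ℝ, u (cs s x) := by
  set e := MeasurableEquiv.piFinSuccAbove (fun _ : Fin (n + 1) => ℝ) 0 with he
  have hvp : MeasurePreserving e volume volume :=
    volume_preserving_piFinSuccAbove (fun _ : Fin (n + 1) => ℝ) 0
  have hes : ∀ (c : ℝ) (z : Fin n → ℝ), e.symm (c, z) = cs c z := by
    intro c z
    have h1 : e.symm (c, z) = (0 : Fin (n + 1)).insertNth (α := fun _ => ℝ) c z := rfl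
    rw [h1]
    exact Fin.insertNth_zero' c z
  rw [← hvp.symm.lintegral_comp hu]
  refine (lintegral_prod _ (hu.comp e.symm.measurable).aemeasurable).trans ?_
  exact lintegral_congr fun s => lintegral_congr fun x => congrArg u (hes s x)

theorem shear1 (u : (Fin (n + 1) → ℝ) → ℝ≥0∞) (hu : Measurable u) (r : ℝ) (z w : Fin n → ℝ) :
    ∫⁻ p, u p = ∫⁻ x : Fin n → ℝ, ∫⁻ s : ℝ, u (cs (r + s) (x + (z + s • w))) := by
  rw [split u hu, ← lintegral_add_left_eq_self _ r]
  have h1 : ∀ s : ℝ, ∫⁻ x : Fin n → ℝ, u (cs (r + s) x) =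
      ∫⁻ x : Fin n → ℝ, u (cs (r + s) (x + (z + s • w))) := fun s =>
    (lintegral_add_right_eq_self (fun x : Fin n → ℝ => u (cs (r + s) x)) _).symm
  simp only [h1]
  refine lintegral_lintegral_swap (Measurable.aemeasurable ?_)
  exact hu.comp (cs_meas (by fun_prop) (by fun_prop))

theorem meas_dot {α : Type*} [MeasurableSpace α] {a b : α → Fin n → ℝ}
    (ha : Measurable a) (hb : Measurable b) : Measurable fun q => a q ⬝ᵥ b q := by
  unfold dotProduct
  fun_prop

theorem shear2 (u : (Fin (n + 1) → ℝ) → ℝ≥0∞) (hu : Measurable u) (w : Fin n → ℝ) :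
    ∫⁻ p, u p = ∫⁻ y : Fin n → ℝ, ∫⁻ t : ℝ, u (cs (t - w ⬝ᵥ y) y) := by
  rw [split u hu, lintegral_lintegral_swap (f := fun s x => u (cs s x))
    (Measurable.aemeasurable (hu.comp (cs_meas measurable_fst measurable_snd)))]
  refine lintegral_congr fun y => ?_
  exact (lintegral_sub_right_eq_self (fun t : ℝ => u (cs t y)) _).symm

/-- duality with a constant -/
def Dual (K : ℝ) (f g : (Fin n → ℝ) → ℝ≥0∞) : Prop :=
  ∀ x y, f x * g y ≤ ENNReal.ofReal (K * Real.exp (-(x ⬝ᵥ y)))

/-- the Laplace transform is minimal at the origin -/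
def Cen (f : (Fin n → ℝ) → ℝ≥0∞) : Prop :=
  ∀ z, ∫⁻ x, f x ≤ ∫⁻ x, f x * ENNReal.ofReal (Real.exp (z ⬝ᵥ x))

/-- the statement with a translation -/
def SP (n : ℕ) : Prop :=
  ∀ (K : ℝ) (f g : (Fin n → ℝ) → ℝ≥0∞), 0 ≤ K → Measurable f → Measurable g → Dual K f g →
    ∫⁻ x, f x ≠ ∞ → Integrable (fun x => x) (volume.withDensity f) →
    ∃ z, (∫⁻ x, f x) * (∫⁻ y, g y * ENNReal.ofReal (Real.exp (z ⬝ᵥ y))) ≤
      ENNReal.ofReal (K * (2 * Real.pi) ^ n)

/-- the statement for centred functions -/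
def SQ (n : ℕ) : Prop :=
  ∀ (K : ℝ) (f g : (Fin n → ℝ) → ℝ≥0∞), 0 ≤ K → Measurable f → Measurable g → Dual K f g →
    Cen f → (∫⁻ x, f x) * (∫⁻ y, g y) ≤ ENNReal.ofReal (K * (2 * Real.pi) ^ n)

theorem sq_of_sp (h : SP n) : SQ n := by
  intro K f g hK hf hg hd hc
  set G : ℕ → (Fin n → ℝ) → ℝ≥0∞ := fun k =>
    (Metric.closedBall (0 : Fin n → ℝ) k).indicator fun y => min (g y) k with hG
  have hGm : ∀ k, Measurable (G k) := fun k =>
    (hg.min measurable_const).indicator measurableSet_closedBall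
  have hGle : ∀ k y, G k y ≤ g y := fun k y =>
    (indicator_le_self _ _ y).trans (min_le_left _ _)
  have hmono : Monotone G := by
    intro k l hkl y
    have hkl' : (k : ℝ) ≤ l := by exact_mod_cast hkl
    refine indicator_le_indicator_of_subset (Metric.closedBall_subset_closedBall hkl')
      (fun _ => zero_le) y |>.trans ?_
    exact indicator_le_indicator (min_le_min_left _ (by exact_mod_cast hkl))
  have hsup : ∀ y, ⨆ k, G k y = g y := by
    intro y
    refine le_antisymm (iSup_le fun k => hGle k y) ?_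
    obtain ⟨k, hk⟩ := exists_nat_ge ‖y‖
    have h1 : ∀ l, k ≤ l → min (g y) l ≤ ⨆ k, G k y := by
      intro l hl
      refine le_trans (le_of_eq ?_) (le_iSup _ l)
      rw [hG]
      simp only
      rw [indicator_of_mem]
      rw [mem_closedBall_zero_iff]
      exact hk.trans (by exact_mod_cast hl)
    by_cases hy : g y = ∞
    · rw [hy, ← ENNReal.iSup_natCast]
      refine iSup_le fun l => le_trans ?_ (h1 (max k l) (le_max_left _ _))
      rw [hy, min_eq_right le_top]
      exact_mod_cast le_max_right _ _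
    · obtain ⟨l, hl⟩ := ENNReal.exists_nat_gt hy
      refine le_trans ?_ (h1 (max k l) (le_max_left _ _))
      refine le_min le_rfl (hl.le.trans ?_)
      exact_mod_cast le_max_right _ _
  have e1 : ∫⁻ y, g y = ⨆ k, ∫⁻ y, G k y := by
    rw [← lintegral_iSup hGm hmono]
    simp only [hsup]
  rw [e1, ENNReal.mul_iSup]
  refine iSup_le fun k => ?_
  have hfin : ∫⁻ y, G k y ≠ ∞ := by
    refine ne_top_of_le_ne_top (b := ∫⁻ y, (Metric.closedBall (0 : Fin n → ℝ) k).indicator
      (fun _ => (k : ℝ≥0∞)) y) ?_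
      (lintegral_mono fun y => indicator_le_indicator (min_le_right _ _))
    rw [lintegral_indicator_const measurableSet_closedBall]
    exact ENNReal.mul_ne_top (ENNReal.natCast_ne_top k) measure_closedBall_lt_top.ne
  have := isFiniteMeasure_withDensity hfin
  have hint : Integrable (fun x => x) (volume.withDensity (G k)) := by
    refine Integrable.of_bound measurable_id.aestronglyMeasurable k ?_
    rw [ae_withDensity_iff (hGm k)]
    refine Eventually.of_forall fun y hy => ?_
    by_contra hn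
    exact hy (indicator_of_notMem (by rwa [mem_closedBall_zero_iff]) _)
  obtain ⟨z, hz⟩ := h K (G k) f hK (hGm k) hf (fun x y => by
    rw [mul_comm, dotProduct_comm]
    exact le_trans (mul_le_mul_right (hGle k x) _) (hd y x)) hfin hint
  rw [mul_comm]
  exact le_trans (mul_le_mul_right (hc z) _) hz

theorem sp_zero : SP 0 := by
  intro K f g _ _ _ hd _ _
  refine ⟨0, ?_⟩
  have hv : (volume : Measure (Fin 0 → ℝ)) univ = 1 := by simp [volume_pi]
  rw [lintegral_unique, lintegral_unique, hv]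
  have : ∀ x y : Fin 0 → ℝ, f x * 1 * (g y * ENNReal.ofReal (Real.exp (0 ⬝ᵥ y)) * 1) ≤
      ENNReal.ofReal (K * (2 * Real.pi) ^ 0) := fun x y => by simpa [dotProduct] using hd x y
  exact this _ _

/-- the marginal along a direction -/
def mg (f : (Fin (n + 1) → ℝ) → ℝ≥0∞) (S : Set ℝ) (r : ℝ) (z w x : Fin n → ℝ) : ℝ≥0∞ :=
  ∫⁻ s in S, f (cs (r + s) (x + (z + s • w)))

theorem mg_meas {f : (Fin (n + 1) → ℝ) → ℝ≥0∞} (hf : Measurable f) (S : Set ℝ) (r : ℝ)
    (z w : Fin n → ℝ) : Measurable (mg f S r z w) := by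
  refine Measurable.lintegral_prod_right (f := fun x s => f (cs (r + s) (x + (z + s • w)))) ?_
  exact hf.comp (cs_meas (by fun_prop) (by fun_prop))

theorem meas_tail : Measurable fun p : Fin (n + 1) → ℝ => (Fin.tail p : Fin n → ℝ) :=
  measurable_pi_lambda _ fun j => measurable_pi_apply j.succ

theorem mg_int {f : (Fin (n + 1) → ℝ) → ℝ≥0∞} (hf : Measurable f) {S : Set ℝ}
    (hS : MeasurableSet S) (r : ℝ) (z w : Fin n → ℝ) (e : (Fin n → ℝ) → ℝ≥0∞)
    (he : Measurable e) :
    ∫⁻ x, mg f S r z w x * e x =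
      ∫⁻ p in {p | p 0 - r ∈ S}, e (Fin.tail p - (z + (p 0 - r) • w)) ∂(volume.withDensity f) := by
  have hA : MeasurableSet {p : Fin (n + 1) → ℝ | p 0 - r ∈ S} :=
    ((measurable_pi_apply 0).sub measurable_const) hS
  have hE : Measurable fun p : Fin (n + 1) → ℝ => e (Fin.tail p - (z + (p 0 - r) • w)) :=
    he.comp (meas_tail.sub (by fun_prop))
  rw [setLIntegral_withDensity_eq_setLIntegral_mul _ hf hE hA, ← lintegral_indicator hA,
    shear1 _ ((hf.mul hE).indicator hA) r z w]
  refine lintegral_congr fun x => ?_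
  have hx : Measurable fun s : ℝ => f (cs (r + s) (x + (z + s • w))) :=
    hf.comp (cs_meas (by fun_prop) (by fun_prop))
  rw [mg, ← lintegral_mul_const _ hx, ← lintegral_indicator hS]
  refine lintegral_congr fun s => ?_
  by_cases hs : s ∈ S
  · rw [indicator_of_mem hs, indicator_of_mem (by simpa [cs_zero] using hs)]
    simp [cs_zero, cs_tail]
  · rw [indicator_of_notMem hs, indicator_of_notMem (by simpa [cs_zero] using hs)]

theorem mg_cen {f : (Fin (n + 1) → ℝ) → ℝ≥0∞} (hf : Measurable f) (hfin : ∫⁻ x, f x ≠ ∞)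
    (hint : Integrable (fun x => x) (volume.withDensity f)) {S : Set ℝ}
    (hS : MeasurableSet S) (r : ℝ) (z w : Fin n → ℝ)
    (h0 : ∀ j, ∫ p in {p | p 0 - r ∈ S}, (p j.succ - (z j + (p 0 - r) * w j))
      ∂(volume.withDensity f) = 0) : Cen (mg f S r z w) := by
  intro a
  have := isFiniteMeasure_withDensity hfin
  have h1 := mg_int hf hS r z w (fun _ => 1) measurable_const
  simp only [mul_one] at h1
  have ha : Measurable fun x : Fin n → ℝ => ENNReal.ofReal (Real.exp (a ⬝ᵥ x)) :=
    Measurable.ennreal_ofReal (Real.measurable_exp.comp (meas_dot measurable_const measurable_id))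
  rw [lintegral_one] at h1
  rw [mg_int hf hS r z w _ ha]
  rw [h1]
  generalize hν : (volume.withDensity f).restrict {p | p 0 - r ∈ S} = ν at h0 ⊢
  have hν1 : IsFiniteMeasure ν := hν ▸ inferInstance
  have hν2 : Integrable (fun x => x) ν := hν ▸ hint.restrict
  have hi : ∀ j : Fin n, Integrable
      (fun p : Fin (n + 1) → ℝ => a j * (p j.succ - (z j + (p 0 - r) * w j))) ν := fun j =>
    ((hν2.eval j.succ).sub ((integrable_const _).add
      (((hν2.eval 0).sub (integrable_const _)).mul_const _))).const_mul _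
  have he : ∀ p : Fin (n + 1) → ℝ, a ⬝ᵥ (Fin.tail p - (z + (p 0 - r) • w)) =
      ∑ j, a j * (p j.succ - (z j + (p 0 - r) * w j)) := fun p => rfl
  simp only [he]
  refine jensen ν _ (integrable_finsetSum _ fun j _ => hi j) ?_
  rw [integral_finsetSum _ fun j _ => hi j]
  refine Finset.sum_eq_zero fun j _ => ?_
  rw [integral_const_mul, h0 j, mul_zero]

theorem sp_succ (h : SQ n) : SP (n + 1) := by
  intro K f g hK hf hg hd hfin hint
  by_cases h0 : ∫⁻ x, f x = 0
  · exact ⟨0, by rw [h0, zero_mul]; exact zero_le⟩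
  set μ := volume.withDensity f with hμ
  have : IsFiniteMeasure μ := isFiniteMeasure_withDensity hfin
  have hμu : μ univ = ∫⁻ x, f x := by simp [hμ]
  have hm0 : Measurable fun p : Fin (n + 1) → ℝ => p 0 := measurable_pi_apply 0
  have : NullSingletonClass (μ.map fun p => p 0) := by
    refine ⟨fun r => ?_⟩
    rw [Measure.map_apply hm0 (measurableSet_singleton r)]
    refine withDensity_absolutelyContinuous _ _ ?_
    exact Measure.pi_hyperplane (fun _ : Fin (n + 1) => (volume : Measure ℝ)) 0 r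
  obtain ⟨r, hr1, hr2⟩ := median (μ.map fun p => p 0) (by
    rw [Measure.map_apply hm0 MeasurableSet.univ, preimage_univ, hμu]; exact h0)
  rw [Measure.map_apply hm0 MeasurableSet.univ, preimage_univ, hμu] at hr1 hr2
  rw [Measure.map_apply hm0 measurableSet_Ioi] at hr1
  rw [Measure.map_apply hm0 measurableSet_Iio] at hr2
  set A : Set (Fin (n + 1) → ℝ) := {p | p 0 - r ∈ Ioi (0 : ℝ)} with hA
  set B : Set (Fin (n + 1) → ℝ) := {p | p 0 - r ∈ Iio (0 : ℝ)} with hB
  have eA : (fun p : Fin (n + 1) → ℝ => p 0) ⁻¹' Ioi r = A := by ext p; simp [hA]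
  have eB : (fun p : Fin (n + 1) → ℝ => p 0) ⁻¹' Iio r = B := by ext p; simp [hB]
  rw [eA] at hr1
  rw [eB] at hr2
  have mA : MeasurableSet A := (hm0.sub measurable_const) measurableSet_Ioi
  have mB : MeasurableSet B := (hm0.sub measurable_const) measurableSet_Iio
  have pA : μ A ≠ 0 := fun e => h0 (by rw [hr1, e, mul_zero])
  have pB : μ B ≠ 0 := fun e => h0 (by rw [hr2, e, mul_zero])
  have i0 : Integrable (fun p : Fin (n + 1) → ℝ => p 0 - r) μ :=
    (hint.eval 0).sub (integrable_const _)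
  set α := ∫ p in A, (p 0 - r) ∂μ with hα
  set β := ∫ p in B, (p 0 - r) ∂μ with hβ
  have αpos : 0 < α := by
    rw [hα, setIntegral_pos_iff_support_of_nonneg_ae _ i0.integrableOn]
    · refine lt_of_lt_of_le (pos_iff_ne_zero.2 pA) (measure_mono fun p hp => ⟨?_, hp⟩)
      exact ne_of_gt hp
    · exact (ae_restrict_mem mA).mono fun p hp => le_of_lt hp
  have βneg : β < 0 := by
    have : 0 < ∫ p in B, -(p 0 - r) ∂μ := by
      have i1 : Integrable (fun p : Fin (n + 1) → ℝ => -(p 0 - r)) μ := i0.neg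
      rw [setIntegral_pos_iff_support_of_nonneg_ae _ i1.integrableOn]
      · refine lt_of_lt_of_le (pos_iff_ne_zero.2 pB) (measure_mono fun p hp => ⟨?_, hp⟩)
        exact ne_of_gt (neg_pos.2 hp)
      · exact (ae_restrict_mem mB).mono fun p hp => le_of_lt (neg_pos.2 hp)
    rw [integral_neg] at this
    linarith
  set a := μ.real A with ha
  set b := μ.real B with hb
  have apos : 0 < a := ENNReal.toReal_pos pA (measure_ne_top _ _)
  have bpos : 0 < b := ENNReal.toReal_pos pB (measure_ne_top _ _)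
  have hD : 0 < α * b - β * a := by nlinarith [mul_pos αpos bpos, mul_pos (neg_pos.2 βneg) apos]
  set T : Fin n → ℝ := fun j => ∫ p in A, p j.succ ∂μ with hT
  set U : Fin n → ℝ := fun j => ∫ p in B, p j.succ ∂μ with hU
  set z : Fin n → ℝ := fun j => (α * U j - β * T j) / (α * b - β * a) with hz
  set w : Fin n → ℝ := fun j => (b * T j - a * U j) / (α * b - β * a) with hw
  have hev : ∀ (C : Set (Fin (n + 1) → ℝ)) (j : Fin n),
      ∫ p in C, (p j.succ - (z j + (p 0 - r) * w j)) ∂μ =
        (∫ p in C, p j.succ ∂μ) - (μ.real C * z j + (∫ p in C, (p 0 - r) ∂μ) * w j) := by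
    intro C j
    have i2 : Integrable (fun p : Fin (n + 1) → ℝ => z j + (p 0 - r) * w j) (μ.restrict C) :=
      (integrable_const _).add (i0.mul_const _).restrict
    rw [integral_sub (hint.eval j.succ).restrict i2,
      integral_add (integrable_const _) (i0.mul_const _).restrict, integral_mul_const]
    simp
  have cA : Cen (mg f (Ioi 0) r z w) := by
    refine mg_cen hf hfin hint measurableSet_Ioi r z w fun j => ?_
    rw [hev]
    change T j - (a * z j + α * w j) = 0
    simp only [hz, hw]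
    rw [mul_div_assoc', mul_div_assoc', ← add_div, sub_eq_zero, eq_div_iff hD.ne']
    ring
  have cB : Cen (mg f (Iio 0) r z w) := by
    refine mg_cen hf hfin hint measurableSet_Iio r z w fun j => ?_
    rw [hev]
    change U j - (b * z j + β * w j) = 0
    simp only [hz, hw]
    rw [mul_div_assoc', mul_div_assoc', ← add_div, sub_eq_zero, eq_div_iff hD.ne']
    ring
  refine ⟨cs r z, ?_⟩
  set G : (Fin (n + 1) → ℝ) → ℝ≥0∞ := fun y => g y * ENNReal.ofReal (Real.exp (cs r z ⬝ᵥ y))
    with hG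
  have hGm : Measurable G := hg.mul (Measurable.ennreal_ofReal (Real.measurable_exp.comp
    (meas_dot measurable_const measurable_id)))
  have hGm2 : Measurable (Function.uncurry fun (y : Fin n → ℝ) (t : ℝ) => G (cs (t - w ⬝ᵥ y) y)) :=
    hGm.comp (cs_meas (measurable_snd.sub (meas_dot measurable_const measurable_fst))
      measurable_fst)
  have key : ∀ x y s t, f (cs (r + s) (x + (z + s • w))) * G (cs (t - w ⬝ᵥ y) y) ≤
      ENNReal.ofReal (K * Real.exp (-(x ⬝ᵥ y)) * Real.exp (-(s * t))) := by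
    intro x y s t
    simp only [hG]
    rw [← mul_assoc]
    refine le_trans (mul_le_mul_left (hd _ _) _) (le_of_eq ?_)
    rw [← ENNReal.ofReal_mul (by positivity), mul_assoc, mul_assoc, ← Real.exp_add,
      ← Real.exp_add, cs_dot, cs_dot]
    congr 3
    simp only [add_dotProduct, smul_dotProduct, smul_eq_mul]
    ring
  have m1 : ∀ x, Measurable fun s : ℝ => f (cs (r + s) (x + (z + s • w))) := fun x =>
    hf.comp (cs_meas (by fun_prop) (by fun_prop))
  have m2 : ∀ y, Measurable fun t : ℝ => G (cs (t - w ⬝ᵥ y) y) := fun y =>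
    hGm.comp (cs_meas (by fun_prop) measurable_const)
  have m3 : ∀ S : Set ℝ, Measurable fun y => ∫⁻ t in S, G (cs (t - w ⬝ᵥ y) y) := fun S =>
    Measurable.lintegral_prod_right hGm2
  have hK' : 0 ≤ K * (Real.pi / 2) := by positivity
  have q1 := h _ _ _ hK' (mg_meas hf (Ioi 0) r z w) (m3 (Ioi 0)) (fun x y => by
    refine (half_pos _ _ (m1 x) (m2 y) (by positivity) fun s t _ _ => key x y s t).trans ?_
    exact le_of_eq (by congr 1; ring)) cA
  have q2 := h _ _ _ hK' (mg_meas hf (Iio 0) r z w) (m3 (Iio 0)) (fun x y => by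
    refine (half_neg _ _ (m1 x) (m2 y) (by positivity) fun s t => key x y s t).trans ?_
    exact le_of_eq (by congr 1; ring)) cB
  have n1 := mg_int hf (measurableSet_Ioi (a := (0 : ℝ))) r z w (fun _ => 1) measurable_const
  have n2 := mg_int hf (measurableSet_Iio (a := (0 : ℝ))) r z w (fun _ => 1) measurable_const
  rw [lintegral_one, Measure.restrict_apply_univ] at n1 n2
  simp only [mul_one] at n1 n2
  rw [n1] at q1
  rw [n2] at q2
  have n3 : ∫⁻ y, G y = (∫⁻ y, ∫⁻ t in Ioi 0, G (cs (t - w ⬝ᵥ y) y)) +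
      ∫⁻ y, ∫⁻ t in Iio 0, G (cs (t - w ⬝ᵥ y) y) := by
    rw [shear2 G hGm w, ← lintegral_add_left (m3 _)]
    refine lintegral_congr fun y => ?_
    rw [← lintegral_add_compl _ (measurableSet_Ioi (a := (0 : ℝ))), compl_Ioi,
      Measure.restrict_congr_set Iio_ae_eq_Iic]
  change (∫⁻ x, f x) * (∫⁻ y, G y) ≤ _
  rw [n3, mul_add]
  calc _ = 2 * (μ A * ∫⁻ y, ∫⁻ t in Ioi 0, G (cs (t - w ⬝ᵥ y) y)) +
        2 * (μ B * ∫⁻ y, ∫⁻ t in Iio 0, G (cs (t - w ⬝ᵥ y) y)) := by
        rw [← mul_assoc, ← mul_assoc, ← hr1, ← hr2]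
    _ ≤ 2 * ENNReal.ofReal (K * (Real.pi / 2) * (2 * Real.pi) ^ n) +
        2 * ENNReal.ofReal (K * (Real.pi / 2) * (2 * Real.pi) ^ n) := by gcongr
    _ = _ := by
        rw [← ENNReal.ofReal_ofNat 2, ← ENNReal.ofReal_mul (by norm_num),
          ← ENNReal.ofReal_add (by positivity) (by positivity)]
        congr 1
        ring

theorem sp_all (n : ℕ) : SP n := by
  induction n with
  | zero => exact sp_zero
  | succ n ih => exact sp_succ (sq_of_sp ih)

theorem sq_all (n : ℕ) : SQ n := sq_of_sp (sp_all n)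

end Vale.Agent.P207Z.Leh

end
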