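import Vale.Agent.P242.H607.PL

/-!
The functional inequality of Blaschke and Santaló (Lehec): lemmas in dimension one.
-/

open MeasureTheory Set Filter Topology
open scoped ENNReal

noncomputable section

namespace Vale.Agent.P207Z.Leh

theorem lint_Ioi_exp (φ : ℝ → ℝ≥0∞) :
    ∫⁻ s in Ioi (0 : ℝ), φ s = ∫⁻ a, ENNReal.ofReal (Real.exp a) * φ (Real.exp a) := by
  have h := lintegral_image_eq_lintegral_abs_deriv_mul (s := (univ : Set ℝ)) (f := Real.exp)
    (f' := Real.exp) MeasurableSet.univ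
    (fun x _ => (Real.hasDerivAt_exp x).hasDerivWithinAt) Real.exp_injective.injOn φ
  rw [image_univ, Real.range_exp, Measure.restrict_univ] at h
  rw [h]
  refine lintegral_congr fun a => ?_
  rw [abs_of_pos (Real.exp_pos a)]

theorem gauss_half : ∫⁻ s in Ioi (0 : ℝ), ENNReal.ofReal (Real.exp (-(1 / 2) * s ^ 2)) =
    ENNReal.ofReal (Real.sqrt (Real.pi / (1 / 2)) / 2) := by
  rw [← integral_gaussian_Ioi, ofReal_integral_eq_lintegral_ofReal
    (integrable_exp_neg_mul_sq (by norm_num)).integrableOn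
    (Eventually.of_forall fun x => (Real.exp_pos _).le)]

/-- The inequality on the positive half line. -/
theorem half_pos (φ ψ : ℝ → ℝ≥0∞) (hφ : Measurable φ) (hψ : Measurable ψ) {K : ℝ} (hK : 0 ≤ K)
    (h : ∀ s t, 0 < s → 0 < t → φ s * ψ t ≤ ENNReal.ofReal (K * Real.exp (-(s * t)))) :
    (∫⁻ s in Ioi (0 : ℝ), φ s) * (∫⁻ t in Ioi (0 : ℝ), ψ t) ≤
      ENNReal.ofReal (K * (Real.pi / 2)) := by
  rw [lint_Ioi_exp, lint_Ioi_exp]
  have hm : ∀ u : ℝ → ℝ≥0∞, Measurable u →
      Measurable fun a => ENNReal.ofReal (Real.exp a) * u (Real.exp a) := fun u hu =>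
    (Real.measurable_exp.ennreal_ofReal).mul (hu.comp Real.measurable_exp)
  set w : ℝ → ℝ≥0∞ := fun s => ENNReal.ofReal (Real.sqrt K) *
    ENNReal.ofReal (Real.exp (-(1 / 2) * s ^ 2)) with hw
  have hwm : Measurable w := by
    refine measurable_const.mul (Measurable.ennreal_ofReal ?_)
    fun_prop
  have key := Vale.Agent.P242.H607.PL.pl_one _ _
    (fun a => ENNReal.ofReal (Real.exp a) * w (Real.exp a)) (hm φ hφ) (hm ψ hψ) (hm w hwm) (by
      intro a b
      have h1 := h _ _ (Real.exp_pos a) (Real.exp_pos b)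
      have h2 : Real.exp ((a + b) / 2) ^ 2 = Real.exp a * Real.exp b := by
        rw [← Real.exp_add, sq, ← Real.exp_add]
        congr 1
        ring
      calc ENNReal.ofReal (Real.exp a) * φ (Real.exp a) *
            (ENNReal.ofReal (Real.exp b) * ψ (Real.exp b))
          = ENNReal.ofReal (Real.exp a) * ENNReal.ofReal (Real.exp b) *
            (φ (Real.exp a) * ψ (Real.exp b)) := by ring
        _ ≤ ENNReal.ofReal (Real.exp a) * ENNReal.ofReal (Real.exp b) *
            ENNReal.ofReal (K * Real.exp (-(Real.exp a * Real.exp b))) := by gcongr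
        _ = _ := by
          simp only [hw]
          rw [← ENNReal.ofReal_mul (Real.exp_pos _).le, ← ENNReal.ofReal_mul (by positivity),
            ← ENNReal.ofReal_mul (Real.sqrt_nonneg _), ← ENNReal.ofReal_mul (Real.exp_pos _).le,
            ← ENNReal.ofReal_pow (by positivity)]
          congr 1
          rw [mul_pow, mul_pow, Real.sq_sqrt hK, h2]
          have h3 : Real.exp (-(1 / 2) * (Real.exp a * Real.exp b)) ^ 2 =
              Real.exp (-(Real.exp a * Real.exp b)) := by
            rw [sq, ← Real.exp_add]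
            congr 1
            ring
          rw [h3])
  refine key.trans (le_of_eq ?_)
  rw [← lint_Ioi_exp w]
  simp only [hw]
  rw [lintegral_const_mul _ (Measurable.ennreal_ofReal (by fun_prop)), gauss_half,
    ← ENNReal.ofReal_mul (Real.sqrt_nonneg _), ← ENNReal.ofReal_pow (by positivity)]
  congr 1
  rw [mul_pow, Real.sq_sqrt hK, div_pow, Real.sq_sqrt (by positivity)]
  ring

theorem lint_Iio (φ : ℝ → ℝ≥0∞) :
    ∫⁻ s in Iio (0 : ℝ), φ s = ∫⁻ s in Ioi (0 : ℝ), φ (-s) := by
  rw [← lintegral_indicator measurableSet_Iio, ← lintegral_indicator measurableSet_Ioi,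
    ← lintegral_neg_eq_self]
  refine lintegral_congr fun s => ?_
  by_cases hs : 0 < s
  · rw [indicator_of_mem (show -s ∈ Iio (0 : ℝ) from neg_lt_zero.2 hs),
      indicator_of_mem (show s ∈ Ioi (0 : ℝ) from hs)]
  · rw [indicator_of_notMem (show -s ∉ Iio (0 : ℝ) from fun h => hs (neg_lt_zero.1 h)),
      indicator_of_notMem (show s ∉ Ioi (0 : ℝ) from hs)]

/-- The inequality on the negative half line. -/
theorem half_neg (φ ψ : ℝ → ℝ≥0∞) (hφ : Measurable φ) (hψ : Measurable ψ) {K : ℝ} (hK : 0 ≤ K)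
    (h : ∀ s t, φ s * ψ t ≤ ENNReal.ofReal (K * Real.exp (-(s * t)))) :
    (∫⁻ s in Iio (0 : ℝ), φ s) * (∫⁻ t in Iio (0 : ℝ), ψ t) ≤
      ENNReal.ofReal (K * (Real.pi / 2)) := by
  rw [lint_Iio, lint_Iio]
  refine half_pos _ _ (hφ.comp measurable_neg) (hψ.comp measurable_neg) hK fun s t _ _ => ?_
  have := h (-s) (-t)
  rwa [neg_mul_neg] at this

/-- Medians. -/
theorem median (ν : Measure ℝ) [IsFiniteMeasure ν] [NullSingletonClass ν] (h0 : ν univ ≠ 0) :
    ∃ r : ℝ, ν univ = 2 * ν (Ioi r) ∧ ν univ = 2 * ν (Iio r) := by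
  have hM : 0 < ν.real univ := ENNReal.toReal_pos h0 (measure_ne_top _ _)
  have hc : Continuous fun t => ν.real (Iic t) := by
    have h1 : Continuous fun b => ∫ _ in (0 : ℝ)..b, (1 : ℝ) ∂ν :=
      (integrable_const (1 : ℝ)).continuous_primitive 0
    have h2 : (fun t => ν.real (Iic t)) =
        fun t => ν.real (Iic 0) + ∫ _ in (0 : ℝ)..t, (1 : ℝ) ∂ν := by
      funext t
      rw [← intervalIntegral.integral_Iic_sub_Iic (integrable_const _).integrableOn
        (integrable_const _).integrableOn]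
      simp
    rw [h2]
    exact continuous_const.add h1
  have hsum : ∀ t, ν.real (Iic t) + ν.real (Ioi t) = ν.real univ := by
    intro t
    rw [← measureReal_union (Iic_disjoint_Ioi le_rfl) measurableSet_Ioi, Iic_union_Ioi]
  have hoc : ∀ t, ν.real (Iio t) = ν.real (Iic t) := fun t => measureReal_congr Iio_ae_eq_Iic
  have hoi : ∀ t, ν.real (Ioi t) = ν.real (Ici t) := fun t => measureReal_congr Ioi_ae_eq_Ici
  have t1 : Tendsto (fun t => ν.real (Iic t)) atTop (𝓝 (ν.real univ)) :=
    (ENNReal.tendsto_toReal (measure_ne_top _ _)).comp (tendsto_measure_Iic_atTop ν)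
  have t2 : Tendsto (fun t => ν.real (Ici t)) atBot (𝓝 (ν.real univ)) :=
    (ENNReal.tendsto_toReal (measure_ne_top _ _)).comp (tendsto_measure_Ici_atBot ν)
  obtain ⟨b, hb⟩ := (t1.eventually (lt_mem_nhds (half_lt_self hM))).exists
  obtain ⟨a, ha⟩ := (t2.eventually (lt_mem_nhds (half_lt_self hM))).exists
  have ha' : ν.real (Iic a) ≤ ν.real univ / 2 := by
    have := hsum a
    rw [hoi] at this
    linarith
  obtain ⟨r, hr⟩ := intermediate_value_univ a b hc ⟨ha', hb.le⟩
  have hr' : ν.real (Iic r) = ν.real univ / 2 := hr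
  have conv : ∀ S : Set ℝ, ν.real S = ν.real univ / 2 → ν univ = 2 * ν S := by
    intro S hS
    rw [← ofReal_measureReal (μ := ν) (s := univ), ← ofReal_measureReal (μ := ν) (s := S), hS,
      ← ENNReal.ofReal_ofNat 2, ← ENNReal.ofReal_mul (by norm_num)]
    congr 1
    ring
  refine ⟨r, conv _ ?_, conv _ ?_⟩
  · have := hsum r
    linarith
  · rw [hoc, hr']

/-- The tangent line inequality, integrated. -/
theorem jensen {α : Type*} [MeasurableSpace α] (μ : Measure α) [IsFiniteMeasure μ] (ψ : α → ℝ)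
    (hψ : Integrable ψ μ) (h0 : ∫ x, ψ x ∂μ = 0) :
    μ univ ≤ ∫⁻ x, ENNReal.ofReal (Real.exp (ψ x)) ∂μ := by
  have hi : Integrable (fun x => 1 + ψ x) μ := (integrable_const 1).add hψ
  have h1 : ∫ x, (1 + ψ x) ∂μ = μ.real univ := by
    rw [integral_add (integrable_const 1) hψ, h0]
    simp
  have h2 : ∫ x, (1 + ψ x) ∂μ ≤ ∫ x, max (1 + ψ x) 0 ∂μ :=
    integral_mono hi hi.pos_part fun x => le_max_left _ _
  calc μ univ = ENNReal.ofReal (μ.real univ) := (ofReal_measureReal).symm
    _ ≤ ENNReal.ofReal (∫ x, max (1 + ψ x) 0 ∂μ) := ENNReal.ofReal_le_ofReal (h1 ▸ h2)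
    _ = ∫⁻ x, ENNReal.ofReal (max (1 + ψ x) 0) ∂μ :=
        ofReal_integral_eq_lintegral_ofReal hi.pos_part
          (Eventually.of_forall fun x => le_max_right _ _)
    _ ≤ _ := by
        refine lintegral_mono fun x => ENNReal.ofReal_le_ofReal ?_
        refine max_le ?_ (Real.exp_pos _).le
        have := Real.add_one_le_exp (ψ x)
        linarith

end Vale.Agent.P207Z.Leh

end
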